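import Crest.Agent.X212.G75.Defs

/-!
# Row 212, layer G (helper48): the numerical hypothesis from charges
-/

set_option autoImplicit false
set_option linter.unusedSectionVars false
noncomputable section
open Set

namespace Crest.Agent.X212.Sid48
open M

section sys
variable {X A : Type} [TopologicalSpace X] [PreconnectedSpace X] [Fintype A] [DecidableEq A]
  {S : Sys X A} {c : Finset A} {π : Reg A}

variable (S c) in
/-- the pieces -/
def pcs : Finset (Reg A) := (toFinite {π | S.Piece ↑c π}).toFinset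

theorem mem_pcs : π ∈ pcs S c ↔ S.Piece ↑c π := Finite.mem_toFinset _

/-- the charges adjacent to a region -/
def chg (ch : A → Bool → ℝ) (π : Reg A) : ℝ := ∑ a, (π a).elim 0 (ch a)

theorem exists_off [Nonempty X] (hc : S.Cell ↑c) : ∃ x, x ∉ S.cores ↑c := by
  rcases c.eq_empty_or_nonempty with rfl | ⟨a, ha⟩
  · exact ⟨Classical.arbitrary X, by simp [Sys.cores]⟩
  · obtain ⟨x, hx⟩ := (S.w a).ne true
    exact ⟨x, Sys.not_mem_cores_of_half hc (fun a' ha' he => hc ha ha' he.symm) hx⟩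

theorem card_pcs [Nonempty X] (hc : S.Cell ↑c) : (pcs S c).card = c.card + 1 := by
  obtain ⟨x, hx⟩ := exists_off hc
  rw [pcs, ← ncard_eq_toFinset_card, Sys.ncard_piece hc hx, ncard_coe_finset]

theorem sum_unique {p : Reg A → Prop} [DecidablePred p] (h : ∃! π, S.Piece ↑c π ∧ p π) (g : ℝ) :
    ∑ π ∈ pcs S c, (if p π then g else 0) = g := by
  obtain ⟨π, ⟨h1, h2⟩, h3⟩ := h
  rw [Finset.sum_eq_single_of_mem π (mem_pcs.2 h1)
    (fun π' k e => if_neg fun q => e (h3 π' ⟨mem_pcs.1 k, q⟩)), if_pos h2]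

theorem sum_chg (hc : S.Cell ↑c) (ch : A → Bool → ℝ) :
    ∑ π ∈ pcs S c, chg ch π = ∑ a ∈ c, (ch a false + ch a true) := by
  have e : ∀ a (o : Option Bool), o.elim 0 (ch a) =
      (if o = some false then ch a false else 0) + if o = some true then ch a true else 0 := by
    rintro a (_ | _ | _) <;> simp
  simp only [chg, e]
  rw [Finset.sum_comm, ← Finset.sum_subset (Finset.subset_univ c) fun a _ ha =>
    Finset.sum_eq_zero fun π h => ?_]
  · refine Finset.sum_congr rfl fun a ha => ?_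
    rw [Finset.sum_add_distrib, sum_unique (Sys.existsUnique_adj hc ha _),
      sum_unique (Sys.existsUnique_adj hc ha _)]
  · have : π a = none := by_contra fun k => ha ((mem_pcs.1 h).bd_subset k)
    simp [this]

theorem sum_pt (hc : S.Cell ↑c) {x : X} (hx : x ∉ S.cores ↑c) {p : Reg A → Prop} [DecidablePred p]
    (hp : ∀ π, S.Piece ↑c π → (p π ↔ x ∈ S.U π)) (g : ℝ) :
    ∑ π ∈ pcs S c, (if p π then g else 0) = g := by
  obtain ⟨π, h1, h2⟩ := Sys.exists_piece hc hx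
  exact sum_unique ⟨π, ⟨h1, (hp π h1).2 h2⟩, fun π' k => k.1.unique hc h1 ((hp π' k.1).1 k.2) h2⟩ g

theorem lt_of_sum [Nonempty X] (hc : S.Cell ↑c) {g : Reg A → ℝ} {N : ℝ}
    (h4 : c.Nonempty → ∀ π, S.Piece ↑c π → g π ≤ 4) (hs : 5 + N < ∑ π ∈ pcs S c, g π)
    (J : Finset (Reg A)) (hJ : ∀ π ∈ J, S.Piece ↑c π) (hn : c.Nonempty ∨ J.Nonempty) :
    1 < ∑ π ∈ J, g π + 4 * ((c.card : ℝ) - J.card) - N := by
  classical
  have hs' : J ⊆ pcs S c := fun π h => mem_pcs.2 (hJ π h)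
  have h1 := Finset.card_sdiff_add_card_eq_card hs'
  rw [card_pcs hc] at h1
  have h2 : ∑ π ∈ pcs S c \ J, g π ≤ (pcs S c \ J).card • (4 : ℝ) := by
    refine Finset.sum_le_card_nsmul _ _ _ fun π h => h4 ?_ π (mem_pcs.1 (Finset.mem_sdiff.1 h).1)
    refine hn.elim id fun k => Finset.card_pos.1 ?_
    have := Finset.card_pos.2 k
    have := Finset.card_pos.2 ⟨π, h⟩
    omega
  rw [← Finset.sum_sdiff hs'] at hs
  have h3 : ((pcs S c \ J).card : ℝ) + J.card = c.card + 1 := by exact_mod_cast h1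
  rw [nsmul_eq_mul] at h2
  linarith

end sys

variable {κ lam : Type} [Fintype κ] [Fintype lam] [DecidableEq lam] {Lm : G75.LM κ lam}

/-- the body of `Num` at one cell and one set of broken walls -/
def NumAt (S : G75.Scene Lm) (i : S.L) (σ c : Finset S.A) : Prop :=
  ∃ w : Reg S.A → ℝ, (∀ π, S.M.sys.Piece ↑c π → S.Bd i σ c π (w π)) ∧
    ∀ J : Finset (Reg S.A), (∀ π ∈ J, S.M.sys.Piece ↑c π) → c.Nonempty ∨ J.Nonempty →
      1 < ∑ π ∈ J, w π + 4 * ((c.card : ℝ) - J.card) - 2 * S.nd c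

/-- **charges**: `ch a b` on the side `b` of a broken wall, `gL`, `gR` on the pieces of two points -/
theorem numAt_of_chg (S : G75.Scene Lm) (i : S.L) (σ c : Finset S.A) (hc : S.M.sys.Cell ↑c)
    (ch : S.A → Bool → ℝ) (gL gR N : ℝ) {xL xR : S.X.M} (hL : xL ∉ S.M.sys.cores ↑c)
    (hR : xR ∉ S.M.sys.cores ↑c) {pL pR : Reg S.A → Prop} [DecidablePred pL] [DecidablePred pR]
    (eL : ∀ π, S.M.sys.Piece ↑c π → (pL π ↔ xL ∈ S.M.sys.U π))
    (eR : ∀ π, S.M.sys.Piece ↑c π → (pR π ↔ xR ∈ S.M.sys.U π))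
    (bd : ∀ π, S.M.sys.Piece ↑c π →
      S.Bd i σ c π (chg ch π + (if pL π then gL else 0) + if pR π then gR else 0))
    (h4 : c.Nonempty → ∀ π, S.M.sys.Piece ↑c π →
      (chg ch π + (if pL π then gL else 0) + if pR π then gR else 0) ≤ 4)
    (hN : (S.nd c : ℝ) ≤ N) (hs : 5 + 2 * N < gL + gR + ∑ a ∈ c, (ch a false + ch a true)) :
    NumAt S i σ c := by
  have := S.M.con
  refine ⟨_, bd, lt_of_sum hc h4 ?_⟩
  rw [Finset.sum_add_distrib, Finset.sum_add_distrib, sum_chg hc, sum_pt hc hL eL, sum_pt hc hR eR]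
  linarith

/-- a smaller bound -/
theorem bd_mono {S : G75.Scene Lm} {i : S.L} {σ c : Finset S.A} {π : Reg S.A} {w w' : ℝ}
    (h : S.Bd i σ c π w) (hw : w' ≤ w) : S.Bd i σ c π w' := by
  obtain ⟨β, sg, l2, h1, h2, ε, h3, h4⟩ := h
  exact ⟨β, sg, l2, h1, fun k a b => hw.trans (h2 k a b), ε, h3, h4.mono
    fun T k D m c u t a1 a2 a3 x a4 a5 a6 a7 => hw.trans (k D m c u t a1 a2 a3 x a4 a5 a6 a7)⟩

theorem ab_mono {S : G75.Scene Lm} {i : S.L} {σ c : Finset S.A} {π : Reg S.A} {P Q : ℝ → Prop}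
    (h : S.Ab i σ c π P) (hP : ∀ k, P k → Q k) : S.Ab i σ c π Q := by
  obtain ⟨ε, h3, h4⟩ := h
  exact ⟨ε, h3, h4.mono fun T k D m c u t a1 a2 a3 x a4 a5 a6 =>
    hP _ (k D m c u t a1 a2 a3 x a4 a5 a6)⟩

theorem ab_triv (S : G75.Scene Lm) (i : S.L) (σ c : Finset S.A) (π : Reg S.A) {P : ℝ → Prop}
    (hP : ∀ k, P k) : S.Ab i σ c π P :=
  ⟨1, one_pos, .of_forall fun _ _ _ _ _ _ _ _ _ _ _ _ _ => hP _⟩

/-- the bound from the numbers: `m₀ ≤ nm`, `nh ≤ h₀`, the irreducible and the abelian inequality -/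
theorem bd_of {S : G75.Scene Lm} {i : S.L} {σ c : Finset S.A} {π : Reg S.A} {w β sg l2 : ℝ}
    {m₀ h₀ : ℕ} {P : ℝ → Prop} (hn : S.Nb i (S.M.sys.U π) β sg l2) (hm : m₀ ≤ S.nm σ π)
    (hh : S.nh π ≤ h₀) (h1 : w ≤ 13 / 4 - 3 / 4 * β + (l2 - sg) / 2 + m₀ / 4 - h₀ / 2)
    (ha : S.Ab i σ c π P) (h2 : ∀ k, P k → G75.Lv sg l2 k → w ≤ G75.Wt β sg l2 m₀ h₀ k) :
    S.Bd i σ c π w := by
  have a : (m₀ : ℝ) ≤ S.nm σ π := by exact_mod_cast hm
  have b : (S.nh π : ℝ) ≤ h₀ := by exact_mod_cast hh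
  refine ⟨β, sg, l2, hn, fun k _ q => ?_, ab_mono ha fun k p q => (h2 k p q).trans ?_⟩
  · unfold G75.Dl at q; unfold G75.Wt; linarith
  · unfold G75.Wt; linarith

/-- the bound from `0 ≤ k` alone -/
theorem bd_of_lv {S : G75.Scene Lm} {i : S.L} {σ c : Finset S.A} {π : Reg S.A} {w β sg l2 : ℝ}
    {m₀ h₀ : ℕ} (hn : S.Nb i (S.M.sys.U π) β sg l2) (hm : m₀ ≤ S.nm σ π) (hh : S.nh π ≤ h₀)
    (h : ∀ k, G75.Lv sg l2 k → w ≤ G75.Wt β sg l2 m₀ h₀ k) : S.Bd i σ c π w := by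
  have a : (m₀ : ℝ) ≤ S.nm σ π := by exact_mod_cast hm
  have b : (S.nh π : ℝ) ≤ h₀ := by exact_mod_cast hh
  have e : ∀ k, G75.Lv sg l2 k → w ≤ G75.Wt β sg l2 (S.nm σ π) (S.nh π) k := fun k q =>
    (h k q).trans (by unfold G75.Wt; linarith)
  exact ⟨β, sg, l2, hn, fun k q _ => e k q, ab_triv S i σ c π e⟩

end Crest.Agent.X212.Sid48
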