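import Crest.Agent.X212.Wd38.Cmp

/-!
# Row 212, layer G (helper48): sides of toric walls, points of the axis, pieces of a word
-/

set_option autoImplicit false
set_option linter.unusedSectionVars false
noncomputable section
open Set Function

namespace Crest.Agent.X212.Sid48
open M Rod53 Wd38 Cyl58

variable {Γ : Nm} {C : Cx Γ} {w : Shp Γ} {hw : w.OK} {X : TP V4} (R : Rz C hw X) {x y j c : ℤ}
  {a b : Bs} {s : Bool} {z : X.P.M} {t : ℝ}

/-! ### data -/

theorem OK_lo (h : a.OK w) : w.l ≤ a.lo ∧ a.lo < w.r := by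
  cases a
  iterate 3 exact ⟨h.1.lo, h.1.lt.trans_le h.1.hi⟩
  exacts [⟨h.1, h.2.1⟩, h]

theorem OK_hi (h : a.OK w) : a.lo ≤ a.hi ∧ a.hi ≤ w.r := by
  cases a
  iterate 3 exact ⟨h.1.lt.le, h.1.hi⟩
  exacts [⟨le_rfl, h.2.1.le⟩, ⟨le_rfl, h.2.le⟩]

theorem OK_rg (h : a.OK w) (ha : a.arc) : w.Rg a.lo a.hi := by
  cases a
  iterate 3 exact h.1
  all_goals exact ha.elim

theorem lo_eq_hi (ha : ¬a.arc) : a.lo = a.hi := by
  cases a
  iterate 3 exact (ha trivial).elim
  all_goals rfl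

theorem side_arc (ha : a.arc) : a.side c = false ↔ a.lo < c ∧ c ≤ a.hi := by
  cases a
  iterate 3 simp [Bs.side, Bs.lo, Bs.hi]
  all_goals exact ha.elim

theorem side_sl (ha : ¬a.arc) : a.side c = true ↔ a.lo < c := by
  cases a
  iterate 3 exact (ha trivial).elim
  all_goals simp [Bs.side, Bs.lo]

theorem side_congr {c' : ℤ} (h1 : a.lo < c ↔ a.lo < c') (h2 : c ≤ a.hi ↔ c' ≤ a.hi) :
    a.side c = a.side c' := by
  cases a <;> simp only [Bs.side, Bs.lo, Bs.hi] at h1 h2 ⊢ <;> simp only [h1, h2]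

theorem side_hi (h : a.lo ≤ a.hi) (hc : a.hi < c) : a.side c = true := by
  by_cases ha : a.arc
  · exact Bool.eq_true_of_not_eq_false fun e => ((side_arc ha).1 e).2.not_gt hc
  · exact (side_sl ha).2 (h.trans_lt hc)

/-- the side of `a` on which the wall `b` lies -/
def sw (a b : Bs) : Bool := a.side (b.lo + 1)

/-- no foot of `a` is in the slot `j` -/
def Fr (a : Bs) (j : ℤ) : Prop := a.lo ≠ j ∧ a.hi ≠ j

instance (a : Bs) (j : ℤ) : Decidable (Fr a j) := inferInstanceAs (Decidable (_ ∧ _))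

theorem far_symm (h : a.Far b) : b.Far a := by unfold Bs.Far at *; tauto

theorem far_fr (h : a.Far b) (ha : a.lo ≤ a.hi) (hb : b.lo ≤ b.hi) (e : b.arc → b.lo < b.hi)
    (e' : a.arc → a.lo < a.hi) : Fr a b.lo ∧ Fr a b.hi := by
  unfold Fr
  rcases h with h | h | ⟨-, h, h', k⟩ | ⟨-, h, h', k⟩
  · omega
  · omega
  · have := e k; omega
  · have := e' k; omega

/-! ### sides -/

/-- the sides of a toric wall -/
def sd (b : Bs) (s : Bool) : Set X.P.M := cond s (R.Z b (Iic b.r0))ᶜ (R.Z b (Iio b.r0))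

theorem nk_S (h : b.OK w) (s : Bool) : (R.nk b h).S s = sd R b s := by
  cases s
  exacts [(R.spec_nk b h).f, (R.spec_nk b h).t]

theorem Z_time (hz : z ∈ R.Z a (Iic t)) (ht : t ≤ a.r0) :
    (a.arc → (a.lo : ℝ) + 1 / 2 ≤ X.τ z) ∧ X.τ z ≤ a.hi + 1 / 2 := by
  by_cases ha : a.arc
  · rw [(R.arc_eq ha).1] at hz
    obtain ⟨r, h1, h2⟩ := R.D_time hz
    have := abs_le.1 (h2.trans (le_trans h1 (ht.trans (R.arc_eq ha).2.le)))
    unfold cc at this
    exact ⟨fun _ => by linarith [this.1], by linarith [this.2]⟩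
  · cases a
    iterate 3 exact (ha trivial).elim
    all_goals exact ⟨fun k => k.elim, le_trans hz ht⟩

theorem sd_hi (h : (a.hi : ℝ) + 1 / 2 < X.τ z) : z ∈ sd R a true :=
  fun k => (Z_time R k le_rfl).2.not_gt h

theorem sd_lo (h : X.τ z < (a.lo : ℝ) + 1 / 2) : z ∈ sd R a (a.side a.lo) := by
  by_cases ha : a.arc
  · rw [Bool.eq_true_of_not_eq_false fun e => ((side_arc ha).1 e).1.false]
    exact fun k => ((Z_time R k le_rfl).1 ha).not_gt h
  · rw [Bool.eq_false_of_not_eq_true fun e => ((side_sl ha).1 e).false]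
    cases a
    iterate 3 exact (ha trivial).elim
    all_goals exact h

/-- points of the axis, seen in the chart of the slots `j`, `j + 1` -/
def Ax (j : ℤ) (t : ℝ) (z : X.P.M) : Prop :=
  ∃ (h : w.Rg j (j + 1)) (p : C.XR w j (j + 1)), C.tm p = t ∧ t ∈ II j (j + 1) ∧
    p ∈ (C.T _).tor _ ∧ (C.T _).yy _ p = 0 ∧ R.B h p = z

theorem exists_ax (h1 : w.l ≤ j) (h2 : j < w.r) (ht : t ∈ II j (j + 1)) {i : ℤ}
    (hi : t ∈ Ioo (i : ℝ) (i + 1)) : ∃ z, Ax R j t z := by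
  have h := Shp.rg_one h1 h2
  obtain ⟨β, hu⟩ := (h.isWd hw).prim i
  have k : (((1 : Circle), (0 : ℂ)), t) ∈ Ur (w.v j (j + 1)) (w.bw j (j + 1) i) :=
    .inr (by rw [h.v_eq hw]; exact Ioo_subset_Jr hi)
  exact ⟨_, h, _, (C.T _).time_rod hu k, ht, (C.T _).rod_mem_tor hu k,
    ((C.T _).yy_rod hu k).trans norm_zero, rfl⟩

variable {R}

theorem Ax.time (h : Ax R j t z) : X.τ z = t := by
  obtain ⟨h, p, rfl, k, -, -, rfl⟩ := h
  exact (R.B h).tm p k

theorem Ax.mem_D (h : Ax R j t z) (r : w.Rg x y) (h1 : x ≤ j) (h2 : j + 1 ≤ y) {S : Set ℝ}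
    (hS : |t - cc x y| ∈ S) : z ∈ R.D x y S := by
  obtain ⟨h, p, rfl, k, k1, k2, rfl⟩ := h
  refine (R.mem_D h r ⟨fun _ => by omega, fun _ => by omega⟩ k).2 ⟨II_mono h1 h2 k, k1, ?_⟩
  change √(_ + (C.T _).yy _ p ^ 2) ∈ S
  rwa [k2, zero_pow two_ne_zero, add_zero, Real.sqrt_sq_eq_abs]

/-- the side of a point of the axis -/
theorem Ax.sd (h : Ax R j t z) (ha : a.OK w) (h1 : a.lo < c → (a.lo : ℝ) + 1 / 2 < t ∧ a.lo ≤ j)
    (h2 : c ≤ a.lo → t < a.lo + 1 / 2) (h3 : a.hi < c → (a.hi : ℝ) + 1 / 2 < t)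
    (h4 : c ≤ a.hi → t < a.hi + 1 / 2 ∧ j + 1 ≤ a.hi) : z ∈ sd R a (a.side c) := by
  have k := (OK_hi ha).1
  rcases le_or_gt c a.lo with e | e
  · rw [side_congr (c' := a.lo) (by omega) (by omega)]
    exact sd_lo R (h.time ▸ h2 e)
  rcases lt_or_ge a.hi c with e' | e'
  · rw [side_hi k e']
    exact sd_hi R (h.time ▸ h3 e')
  have q : a.arc := by_contra fun q => by have := lo_eq_hi q; omega
  rw [(side_arc q).2 ⟨e, e'⟩]
  change z ∈ R.Z a _
  rw [(R.arc_eq q).1, (R.arc_eq q).2]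
  refine h.mem_D (OK_rg ha q) (h1 e).2 (h4 e').2 (mem_Iio.2 (abs_lt.2 ?_))
  unfold cc
  exact ⟨by linarith [(h1 e).1], by linarith [(h4 e').1]⟩

theorem cast_lt {i k : ℤ} (h : i < k) : (i : ℝ) + 1 ≤ k := by exact_mod_cast h

theorem cast_le {i k : ℤ} (h : i ≤ k) : (i : ℝ) ≤ k := by exact_mod_cast h

variable (R)

/-- a point for every integer -/
theorem exists_pt (h1 : w.l ≤ c) (h2 : c ≤ w.r + 1) :
    ∃ z, ∀ a : Bs, a.OK w → z ∈ sd R a (a.side c) := by
  have := hw.lt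
  rcases h1.eq_or_lt with rfl | h1
  · obtain ⟨z, h⟩ := exists_ax R (t := w.l + 3 / 8) le_rfl hw.lt ⟨by linarith, by push_cast; linarith⟩
      (i := w.l) ⟨by linarith, by linarith⟩
    refine ⟨z, fun a ha => ?_⟩
    have := OK_lo ha; have := OK_hi ha
    rw [side_congr (c' := a.lo) (by omega) (by omega)]
    exact sd_lo R (by linarith [h.time, cast_le (OK_lo ha).1])
  rcases h2.eq_or_lt with rfl | h2
  · obtain ⟨z, h⟩ := exists_ax R (j := w.r - 1) (t := w.r + 5 / 8) (by omega) (by omega)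
      ⟨by push_cast; linarith, by push_cast; linarith⟩ (i := w.r) ⟨by linarith, by linarith⟩
    refine ⟨z, fun a ha => ?_⟩
    have := OK_hi ha
    rw [side_hi this.1 (by omega)]
    exact sd_hi R (by linarith [h.time, cast_le this.2])
  obtain ⟨z, h⟩ := exists_ax R (j := c - 1) (t := c + 1 / 8) (by omega) (by omega)
    ⟨by push_cast; linarith, by push_cast; linarith⟩ (i := c) ⟨by linarith, by linarith⟩
  exact ⟨z, fun a ha => h.sd ha (fun e => ⟨by linarith [cast_lt e], by omega⟩)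
    (fun e => by linarith [cast_le e]) (fun e => by linarith [cast_lt e])
    fun e => ⟨by linarith [cast_le e], by omega⟩⟩

/-- the first foot -/
theorem exists_lo (hb : b.OK w) :
    ∃ z ∈ R.bd b, ∀ a : Bs, a.OK w → Fr a b.lo → z ∈ sd R a (sw a b) := by
  obtain ⟨z, h⟩ := exists_ax R (t := b.lo + 1 / 2) (OK_lo hb).1 (OK_lo hb).2
    ⟨by linarith, by push_cast; linarith⟩ (i := b.lo) ⟨by linarith, by linarith⟩
  refine ⟨z, ?_, fun a ha f => h.sd ha
    (fun e => ⟨by linarith [cast_lt (show a.lo < b.lo by have := f.1; omega)], by omega⟩)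
    (fun e => by linarith [cast_lt (show b.lo < a.lo by omega)])
    (fun e => by linarith [cast_lt (show a.hi < b.lo by have := f.2; omega)])
    fun e => ⟨by linarith [cast_lt (show b.lo < a.hi by omega)], e⟩⟩
  by_cases q : b.arc
  · have r := OK_rg hb q
    rw [Rz.bd, (R.arc_eq q).1, (R.arc_eq q).2]
    refine h.mem_D r le_rfl r.lt ?_
    rw [abs_of_nonpos (by unfold cc; linarith [cast_lt r.lt])]
    unfold cc
    exact ⟨by linarith, by linarith⟩
  · cases b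
    iterate 3 exact (q trivial).elim
    all_goals exact (Rz.half_II _).ge (h.time ▸ half_mem _)

/-- the second foot -/
theorem exists_hi (hb : b.OK w) (q : b.arc) :
    ∃ z ∈ R.bd b, ∀ a : Bs, a.OK w → Fr a b.hi → z ∈ sd R a (a.side b.hi) := by
  have r := OK_rg hb q
  have := r.lo; have := r.lt; have := r.hi
  obtain ⟨z, h⟩ := exists_ax R (j := b.hi - 1) (t := b.hi + 1 / 2) (by omega) (by omega)
    ⟨by push_cast; linarith, by push_cast; linarith⟩ (i := b.hi) ⟨by linarith, by linarith⟩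
  refine ⟨z, ?_, fun a ha f => h.sd ha (fun e => ⟨by linarith [cast_lt e], by omega⟩)
    (fun e => by linarith [cast_lt (show b.hi < a.lo by have := f.1; omega)])
    (fun e => by linarith [cast_lt e])
    fun e => ⟨by linarith [cast_lt (show b.hi < a.hi by have := f.2; omega)], by omega⟩⟩
  rw [Rz.bd, (R.arc_eq q).1, (R.arc_eq q).2]
  refine h.mem_D r (by omega) (by omega) ?_
  rw [abs_of_nonneg (by unfold cc; linarith [cast_lt r.lt])]
  unfold cc
  exact ⟨by linarith, by linarith⟩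

theorem Z_mono (b : Bs) {S S' : Set ℝ} (h : S ⊆ S') : R.Z b S ⊆ R.Z b S' := by
  cases b
  iterate 3 exact R.D_mono h
  all_goals exact preimage_mono h

theorem Z_union (b : Bs) (S S' : Set ℝ) : R.Z b (S ∪ S') = R.Z b S ∪ R.Z b S' := by
  refine Subset.antisymm ?_ (union_subset (Z_mono R b subset_union_left) (Z_mono R b subset_union_right))
  cases b
  iterate 3 exact fun _ ⟨h, p, k1, k2, k3⟩ =>
    k2.2.imp (fun e => ⟨h, p, k1, ⟨k2.1, e⟩, k3⟩) fun e => ⟨h, p, k1, ⟨k2.1, e⟩, k3⟩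
  all_goals exact fun _ h => h

theorem Z_disj (b : Bs) {S S' : Set ℝ} (h : Disjoint S S') : Disjoint (R.Z b S) (R.Z b S') := by
  cases b
  iterate 3 exact disjoint_left.2 fun _ p q =>
    let ⟨_, _, _, _, k⟩ := R.D_up p.1 le_rfl le_rfl p; disjoint_left.1 h ((k _).1 p) ((k _).1 q)
  all_goals exact h.preimage _

/-- the inside together with the band -/
theorem sd_false_union (b : Bs) : sd R b false ∪ R.bd b = R.Z b (Iio (b.r0 + 1 / 4)) := by
  rw [Rz.bd, sd, cond_false, ← Z_union, Iio_union_Ioo (min_lt_of_left_lt (by linarith)), max_eq_right (by linarith)]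

/-- the outside together with the band -/
theorem sd_true_union (b : Bs) : sd R b true ∪ R.bd b = (R.Z b (Iic (b.r0 - 1 / 4)))ᶜ := by
  refine Subset.antisymm (union_subset (compl_subset_compl.2 (Z_mono R b (Iic_subset_Iic.2 (by linarith))))
    (Z_disj R b (disjoint_left.2 fun _ p q => p.1.not_ge q)).subset_compl_right) fun z hz => ?_
  by_cases k : z ∈ R.Z b (Iic b.r0)
  · rw [← Iic_union_Ioc_eq_Iic (show b.r0 - 1 / 4 ≤ b.r0 by linarith), Z_union] at k
    exact .inr (Z_mono R b (Ioc_subset_Ioo_right (by linarith)) (k.resolve_left hz))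
  · exact .inl k

/-! ### toric families of walls -/

/-- the walls of `σ` are the images under `Φ` of the toric walls `B a` -/
structure Trc {A : Type} (S : Sys X.P.M A) (Φ : X.P.M → X.P.M) (B : A → Bs) (σ : Set A) : Prop where
  bij : Bijective Φ
  ok : ∀ a ∈ σ, (B a).OK w
  sd : ∀ a ∈ σ, ∀ s z, Φ z ∈ (S.w a).sd s ↔ z ∈ sd R (B a) s
  bd : ∀ a ∈ σ, ∀ z, Φ z ∈ (S.w a).band ↔ z ∈ R.bd (B a)

/-- the wall is moved by some of the twists of the list and missed by the others -/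
inductive Utw : List Tw → Wl → Prop
  | nil (b : Bs) : Utw [] ⟨b, []⟩
  | use {l : List Tw} {a : Wl} (t : Tw) : Utw l a → Utw (t :: l) (a.twist t)
  | clr {l : List Tw} {a : Wl} {t : Tw} : Utw l a → Wl.Clr t a → Utw (t :: l) a

theorem Utw.spec {l : List Tw} {a : Wl} (h : Utw l a) (k : a.b.OK w) :
    (∀ s z, R.tws l z ∈ (R.bn a k).wall.sd s ↔ z ∈ sd R a.b s) ∧
      ∀ z, R.tws l z ∈ R.bW a ↔ z ∈ R.bd a.b := by
  have := R.con
  induction h with
  | nil b => exact ⟨fun s z => (R.bn_sd ⟨b, []⟩ k).trans (by rw [nk_S]),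
      fun z => (R.tws []).injective.mem_set_image⟩
  | @use l a t _ ih =>
    refine ⟨fun s z => Iff.trans ?_ ((ih k).1 s z), fun z => ?_⟩
    · obtain ⟨z', e⟩ := (R.tws a.tw).surjective (R.tws l z)
      change R.tw t (R.tws l z) ∈ _ ↔ _
      rw [← e]
      exact (R.bn_sd (a.twist t) k).trans (R.bn_sd a k).symm
    · rw [R.bW_twist]
      exact (R.tw t).injective.mem_set_image.trans ((ih k).2 z)
  | @clr l a t _ c ih =>
    refine ⟨fun s z => Iff.trans ?_ ((ih k).1 s z),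
      fun z => (R.tw_mem (.inr (R.K_clr c))).trans ((ih k).2 z)⟩
    have e : ∀ p, R.tw t ((R.bn a k).j p) = (R.bn a k).j p := fun p => R.tw_off _
      (disjoint_right.1 (R.K_clr c) (R.range_bn a k ▸ mem_range_self p))
    refine ⟨fun q => ?_, fun q => sd_of_fix _ (R.tw t).continuous (R.tw t).injective e s q⟩
    have := sd_of_fix (R.bn a k) (R.tw t).symm.continuous (R.tw t).symm.injective
      (fun p => by conv_lhs => rw [← e p]
                   exact (R.tw t).symm_apply_apply _) s q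
    rwa [show (R.tw t).symm (R.tws (t :: l) z) = R.tws l z from (R.tw t).symm_apply_apply _] at this

theorem trc_mark {κ A : Type} [Fintype κ] (G : Tab C.kd κ) (W : A → Wl) (hW : ∀ a, (W a).b.OK w)
    {l : List Tw} {σ : Set A} (h : ∀ a ∈ σ, Utw l (W a)) :
    Trc R (R.mark G W hW).sys (R.tws l) (fun a => (W a).b) σ :=
  ⟨(R.tws l).bijective, fun a _ => hW a, fun a ha => ((h a ha).spec R (hW a)).1,
    fun a ha z => Iff.trans (by rw [← R.range_bn _ (hW a)]; rfl) (((h a ha).spec R (hW a)).2 z)⟩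

theorem utw_nil {a : Wl} (h : a.tw = []) : Utw [] a := by
  obtain ⟨b, l⟩ := a
  obtain rfl : l = [] := h
  exact .nil b

/-- the integer `c` lies in the region -/
def Mem {A : Type} (B : A → Bs) (π : Reg A) (c : ℤ) : Prop := ∀ a s, π a = some s → (B a).side c = s

/-- pieces of a word -/
structure WP {A : Type} (B : A → Bs) (c : Set A) (π : Reg A) : Prop where
  sub : ∀ a s, π a = some s → a ∈ c
  adj : ∀ a s a' s', π a = some s → π a' = some s' → a ≠ a' → sw (B a) (B a') = s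
  out : ∀ a ∈ c, π a = none → ¬Mem B π ((B a).lo + 1)

variable {R}

namespace Trc
variable {A : Type} {S : Sys X.P.M A} {Φ : X.P.M → X.P.M} {B : A → Bs} {σ : Set A}
  (T : Trc R S Φ B σ) {p q : A} {π : Reg A}
include T

theorem mono {τ : Set A} (h : τ ⊆ σ) : Trc R S Φ B τ :=
  ⟨T.bij, fun a k => T.ok a (h k), fun a k => T.sd a (h k), fun a k => T.bd a (h k)⟩

theorem cmp (hp : p ∈ σ) (hq : q ∈ σ) (h : (B p).Far (B q)) : S.Cmp p q :=
  disjoint_left.2 fun z k k' => by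
    obtain ⟨z, rfl⟩ := T.bij.2 z
    exact disjoint_left.1 (R.bd_far h) ((T.bd p hp z).1 k) ((T.bd q hq z).1 k')

theorem cell (h : σ.Pairwise fun a b => (B a).Far (B b)) : S.Cell σ :=
  fun _ hp _ hq e => T.cmp hp hq (h hp hq e)

theorem fr (hp : p ∈ σ) (hq : q ∈ σ) (h : (B p).Far (B q)) : Fr (B p) (B q).lo ∧ Fr (B p) (B q).hi :=
  far_fr h (OK_hi (T.ok p hp)).1 (OK_hi (T.ok q hq)).1 (fun e => (OK_rg (T.ok q hq) e).lt)
    fun e => (OK_rg (T.ok p hp) e).lt

/-- a compatible wall lies on the side of its first foot -/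
theorem sub_lo (hp : p ∈ σ) (hq : q ∈ σ) (h : S.Cmp p q) (f : Fr (B p) (B q).lo) :
    (S.w q).band ⊆ (S.w p).sd (sw (B p) (B q)) := by
  obtain ⟨z, k1, k2⟩ := exists_lo R (T.ok q hq)
  exact Wall.band_subset h ((T.bd q hq z).2 k1) ((T.sd p hp _ z).2 (k2 _ (T.ok p hp) f))

theorem sub_hi (hp : p ∈ σ) (hq : q ∈ σ) (h : S.Cmp p q) (e : (B q).arc) (f : Fr (B p) (B q).hi) :
    (S.w q).band ⊆ (S.w p).sd ((B p).side (B q).hi) := by
  obtain ⟨z, k1, k2⟩ := exists_hi R (T.ok q hq) e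
  exact Wall.band_subset h ((T.bd q hq z).2 k1) ((T.sd p hp _ z).2 (k2 _ (T.ok p hp) f))

/-- **the side lemma** -/
theorem far_sd (hp : p ∈ σ) (hq : q ∈ σ) (h : (B p).Far (B q)) :
    (S.w q).band ⊆ (S.w p).sd (sw (B p) (B q)) :=
  T.sub_lo hp hq (T.cmp hp hq h) (T.fr hp hq h).1

theorem eq_lo (hp : p ∈ σ) (hq : q ∈ σ) (h : (S.w q).band ⊆ (S.w p).sd s) (f : Fr (B p) (B q).lo) :
    sw (B p) (B q) = s := by
  obtain ⟨z, k1, k2⟩ := exists_lo R (T.ok q hq)
  exact (S.w p).sd_inj ((T.sd p hp _ z).2 (k2 _ (T.ok p hp) f)) (h ((T.bd q hq z).2 k1))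

theorem eq_hi (hp : p ∈ σ) (hq : q ∈ σ) (h : (S.w q).band ⊆ (S.w p).sd s) (e : (B q).arc)
    (f : Fr (B p) (B q).hi) : (B p).side (B q).hi = s := by
  obtain ⟨z, k1, k2⟩ := exists_hi R (T.ok q hq) e
  exact (S.w p).sd_inj ((T.sd p hp _ z).2 (k2 _ (T.ok p hp) f)) (h ((T.bd q hq z).2 k1))

/-- crossing walls are not compatible -/
theorem not_cmp (hp : p ∈ σ) (hq : q ∈ σ) (e : (B q).arc) (f : Fr (B p) (B q).lo) (f' : Fr (B p) (B q).hi)
    (h : sw (B p) (B q) ≠ (B p).side (B q).hi) : ¬S.Cmp p q :=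
  fun k => h (T.eq_hi hp hq (T.sub_lo hp hq k f) e f').symm

/-- a point for every integer -/
theorem exists_pt (h1 : w.l ≤ c) (h2 : c ≤ w.r + 1) : ∃ z, z ∉ S.cores σ ∧
    ∀ π : Reg A, (∀ a s, π a = some s → a ∈ σ) → (Mem B π c ↔ z ∈ S.U π) := by
  obtain ⟨z, h⟩ := Sid48.exists_pt R h1 h2
  have k := fun a ha => (T.sd a ha _ z).2 (h _ (T.ok a ha))
  refine ⟨Φ z, fun e => ?_, fun π hπ => ⟨fun e a s q => e a s q ▸ k a (hπ a s q),
    fun e a s q => (S.w a).sd_inj (k a (hπ a s q)) (e a s q)⟩⟩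
  obtain ⟨a, ha, e⟩ := mem_iUnion₂.1 e
  exact e _ (k a ha)

theorem mem_inn (hπ : ∀ a s, π a = some s → a ∈ σ) (hp : p ∈ σ) (h0 : π p = none)
    (hf : ∀ a s, π a = some s → (B a).Far (B p)) (h : Mem B π ((B p).lo + 1)) : p ∈ S.inn π :=
  ⟨h0, fun _ hz a s e => h a s e ▸ T.far_sd (hπ a s e) hp (hf a s e) hz, fun a ha =>
    let ⟨s, e⟩ := Sys.mem_bd.1 ha; (T.cmp (hπ a s e) hp (hf a s e)).symm⟩

theorem inn_lo (hπ : ∀ a s, π a = some s → a ∈ σ) (hp : p ∈ σ) (h : p ∈ S.inn π)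
    (hf : ∀ a s, π a = some s → Fr (B a) (B p).lo) : Mem B π ((B p).lo + 1) :=
  fun a s e => T.eq_lo (hπ a s e) hp (fun _ hz => h.2.1 hz a s e) (hf a s e)

theorem inn_hi (hπ : ∀ a s, π a = some s → a ∈ σ) (hp : p ∈ σ) (h : p ∈ S.inn π) (q : (B p).arc)
    (hf : ∀ a s, π a = some s → Fr (B a) (B p).hi) : Mem B π (B p).hi :=
  fun a s e => T.eq_hi (hπ a s e) hp (fun _ hz => h.2.1 hz a s e) q (hf a s e)

/-- **pieces are word pieces** -/
theorem wp (hf : σ.Pairwise fun a b => (B a).Far (B b)) (h : S.Piece σ π) : WP B σ π := by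
  have := R.con
  have k : ∀ a s, π a = some s → a ∈ σ := fun a s e => h.bd_subset (Sys.mem_bd_of e)
  refine ⟨k, fun a s a' s' e e' n => ?_, fun a ha e m => h.not_inn a ha (T.mem_inn k ha e
    (fun a' s e' => hf (k a' s e') ha (by rintro rfl; rw [e] at e'; cases e')) m)⟩
  exact T.eq_lo (k a s e) (k a' s' e') (h.toIsReg.band_subset n.symm e (Sys.mem_bd_of e'))
    (T.fr (k a s e) (k a' s' e') (hf (k a s e) (k a' s' e') n)).1

/-- word regions are regions -/
theorem isReg (hπ : ∀ a s, π a = some s → a ∈ σ)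
    (hf : ∀ a s a' s', π a = some s → π a' = some s' → a ≠ a' → (B a).Far (B a') ∧ sw (B a) (B a') = s) :
    S.IsReg π := by
  refine ⟨fun a ha a' ha' n => ?_, fun a s e z hz a' s' e' => ?_⟩
  · obtain ⟨s, e⟩ := Sys.mem_bd.1 ha
    obtain ⟨s', e'⟩ := Sys.mem_bd.1 ha'
    exact T.cmp (hπ a s e) (hπ a' s' e') (hf a s a' s' e e' n).1
  · by_cases n : a' = a
    · subst n
      exact Option.some.inj (e.symm.trans e') ▸ hz.2
    · exact (hf a' s' a s e' e n).2 ▸ T.far_sd (hπ a' s' e') (hπ a s e) (hf a' s' a s e' e n).1 hz.1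

theorem piece (hf : σ.Pairwise fun a b => (B a).Far (B b)) (h : WP B σ π) : S.Piece σ π :=
  ⟨T.isReg h.sub fun a s a' s' e e' n => ⟨hf (h.sub a s e) (h.sub a' s' e') n, h.adj a s a' s' e e' n⟩,
    fun a ha => let ⟨s, e⟩ := Sys.mem_bd.1 ha; h.sub a s e,
    fun a ha k => h.out a ha k.1 (T.inn_lo h.sub ha k fun a' s e => (T.fr (h.sub a' s e) ha
      (hf (h.sub a' s e) ha (by rintro rfl; rw [k.1] at e; cases e))).1)⟩

theorem mem_U (hπ : ∀ a s, π a = some s → a ∈ σ) :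
    Φ z ∈ S.U π ↔ ∀ a s, π a = some s → z ∈ Sid48.sd R (B a) s :=
  forall₃_congr fun a s e => T.sd a (hπ a s e) s z

theorem hf_false (hp : p ∈ σ) :
    Φ z ∈ (S.w p).sd false ∪ (S.w p).band ↔ z ∈ R.Z (B p) (Iio ((B p).r0 + 1 / 4)) := by
  rw [← sd_false_union, mem_union, mem_union, T.sd p hp, T.bd p hp]

theorem hf_true (hp : p ∈ σ) :
    Φ z ∈ (S.w p).sd true ∪ (S.w p).band ↔ z ∉ R.Z (B p) (Iic ((B p).r0 - 1 / 4)) := by
  rw [← mem_compl_iff, ← sd_true_union, mem_union, mem_union, T.sd p hp, T.bd p hp]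

/-- the insides of two arcs, each outside the other, are disjoint -/
theorem hf_disj (hp : p ∈ σ) (hq : q ∈ σ) (h : (B p).Far (B q)) (e : sw (B p) (B q) = true)
    (e' : sw (B q) (B p) = true) :
    Disjoint ((S.w p).sd false ∪ (S.w p).band) ((S.w q).sd false ∪ (S.w q).band) := by
  have := R.con
  have k := T.cmp hp hq h
  have h1 := e ▸ T.far_sd hp hq h
  have h2 := Wall.nest k h1 (e' ▸ T.far_sd hq hp (far_symm h))
  refine disjoint_left.2 fun z a b => b.elim (fun b => (S.w q).not_mem_sd (h2 a) b) fun b => ?_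
  exact a.elim (fun a => (S.w p).not_mem_sd (h1 b) a) fun a => disjoint_left.1 k a b

end Trc

end Crest.Agent.X212.Sid48
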